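import Crest.Agent.R163.Q3.D.S0.P0_0
import Crest.Agent.R163.Q3.D.S0.P0_1

set_option autoImplicit false
set_option maxRecDepth 100000
set_option linter.all false
set_option Elab.async false

namespace Crest.Agent.R163.S0

theorem o0_7 : Ok par f7 Box3.unit C0 :=
  (Ok.part 124331520905423763739955255735363589079346659549246247614909907314878693233955903004671 p0_7_10 (Ok.split 0 p0_7_9 (Ok.part 74130899729700727787975366524642997575109834302918997484563063117151994367 p0_7_8 (Ok.split 1 p0_7_7 (Ok.part 794666367745707489812277390286119359837085398521959843627332 p0_7_6 (Ok.split 0 (Ok.part 11877050738133222800481300400412457938523029568743655680 p0_7_4 (Ok.split 1 p0_7_3 (Ok.part 16599399860404399191782885731540338801485 p0_7_2 (Ok.split 0 p0_7_0 p0_7_1)))) p0_7_5))))))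
theorem o0_6 : Ok par f6 Box3.unit C0 :=
  (Ok.part 30591387118365216337879828186901276773884549237184478293083817549306425937638678527 p0_6_16 (Ok.split 1 p0_6_15 (Ok.part 10984976009256437181728876132737207153748174663276712840316 p0_6_14 (Ok.split 0 p0_6_13 (Ok.part 2854495385910380260535915391237919019882250251 p0_6_12 (Ok.split 1 (Ok.part 730775210105514797268911310714221895755140955637 p0_6_6 (Ok.split 0 p0_6_5 (Ok.part 283137365786637 p0_6_4 (Ok.split 1 p0_6_3 (Ok.part 498965939209 p0_6_2 (Ok.split 0 p0_6_0 p0_6_1)))))) (Ok.part 1460587229932966178117460677854444847398110888507 p0_6_11 (Ok.split 0 p0_6_10 (Ok.part 309423253357016553283716661641737 p0_6_9 (Ok.split 1 p0_6_7 p0_6_8))))))))))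
theorem o0_5 : Ok par f5 Box3.unit C0 :=
  p0_5_0
theorem o0_4 : Ok par f4 Box3.unit C0 :=
  (Ok.part 31828687130226345097917503934729382935072584027620014704790918736304394876101512523747199 p0_4_2 (Ok.split 1 p0_4_0 p0_4_1))
theorem o0_3 : Ok par f3 Box3.unit C0 :=
  (Ok.part 31828687128373671670147404754316723504043375149737387180058210438277309159921469997710863 p0_3_3 (Ok.split 0 (Ok.part 31 p0_3_0 p0_3_1) p0_3_2))
theorem o0_2 : Ok par f2 Box3.unit C0 :=
  (Ok.part 62241527356295341990303409839606730804546631480899444891470073837067149553332138276737 p0_2_13 (Ok.split 0 (Ok.part 822752278650068517275418329436576972054610277731562909398335487 p0_2_3 (Ok.split 0 p0_2_2 (Ok.part 1442840866 p0_2_0 p0_2_1))) (Ok.part 416200190189441784329849418646363122890073662286759930173095927 p0_2_12 (Ok.split 1 p0_2_11 (Ok.part 9356518939079759386611954385255530564 p0_2_10 (Ok.split 0 (Ok.part 2091269130480685716079820508879583843516477 p0_2_8 (Ok.split 1 p0_2_7 (Ok.part 2596148429267413814265248164611072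 p0_2_6 (Ok.split 0 p0_2_4 p0_2_5)))) p0_2_9))))))
theorem o0_1 : Ok par f1 Box3.unit C0 :=
  p0_1_0
theorem o0_0 : Ok par f0 Box3.unit C0 :=
  p0_0_0

theorem pt0 : PtAll par C0 :=
  PtAll.of_okD hw (OkD.cover [f0.dom,f1.dom,f2.dom,f3.dom,f4.dom,f5.dom,f6.dom,f7.dom]
    (.split 0 (.split 0 (.leaf 0) (.split 1 (.leaf 1) (.leaf 2))) (.split 1 (.split 0 (.leaf 3) (.leaf 4)) (.split 0 (.leaf 5) (.split 1 (.leaf 6) (.leaf 7)))))
    (by decide +kernel)
    (List.forall_mem_cons.2 ⟨OkD.of_ok o0_0, (List.forall_mem_cons.2 ⟨OkD.of_ok o0_1, (List.forall_mem_cons.2 ⟨OkD.of_ok o0_2, (List.forall_mem_cons.2 ⟨OkD.of_ok o0_3, (List.forall_mem_cons.2 ⟨OkD.of_ok o0_4, (List.forall_mem_cons.2 ⟨OkD.of_ok o0_5, (List.forall_mem_cons.2 ⟨OkD.of_ok o0_6, (List.forall_mem_cons.2 ⟨OkD.of_ok o0_7, (fun _ h => nomatch h)⟩)⟩)⟩)⟩)⟩)⟩)⟩)⟩))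

end Crest.Agent.R163.S0
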