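import Crest.Agent.R163.Q3.D.S0.S0
import Crest.Agent.R163.Q3.D.S0.H

set_option autoImplicit false
set_option maxRecDepth 100000
set_option linter.all false
set_option Elab.async false

namespace Crest.Agent.R163.S0

theorem p0_0_0 : Ok par f0 Box3.unit C0 :=
  Ok.run hw hf0 ⟨358,25,25,1,10⟩ 59
    (.part 31766445840055727093641526246497465414099153333244292249257388045778432470264377845481471 (.chk false 0) (.split 0 (.part 32127 (.chk false 0) (.split 0 (.chk false 0) (.part 1 (.chk false 0) (.split 1 (.chk false 0) (.split 0 (.chk false 0) (.chk false 0)))))) (.part 28576 (.chk false 0) (.split 1 (.chk false 0) (.split 0 (.chk false 0) (.chk false 0))))))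
    (by decide +kernel)

theorem p0_1_0 : Ok par f1 Box3.unit C0 :=
  Ok.run hw hf1 ⟨342,25,25,1,10⟩ 59
    (.part 31828687130224979325163390183882013700425158272849670901772759257618767777893432481021951 (.chk false 0) (.split 0 (.chk false 0) (.part 9 (.chk false 0) (.split 0 (.part 59 (.chk false 0) (.split 1 (.chk false 0) (.chk false 0))) (.part 56 (.chk false 0) (.split 1 (.chk false 0) (.chk false 0)))))))
    (by decide +kernel)

theorem p0_2_0 : Ok par f2 ((Box3.unit.l 0).r 0) (selB 1 (selB 0 (selB 0 C0 62241527356295341990303409839606730804546631480899444891470073837067149553332138276737) 822752278650068517275418329436576972054610277731562909398335487) 1442840866) :=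
  Ok.run hw hf2 ⟨292,25,25,1,10⟩ 59
    (.chk false 0)
    (by decide +kernel)

theorem p0_2_1 : Ok par f2 ((Box3.unit.l 0).r 0) (selB 0 (selB 0 (selB 0 C0 62241527356295341990303409839606730804546631480899444891470073837067149553332138276737) 822752278650068517275418329436576972054610277731562909398335487) 1442840866) :=
  Ok.run hw hf2 ⟨526,25,25,1,10⟩ 59
    (.split 1 (.chk false 0) (.part 37748736 (.chk false 0) (.split 1 (.chk false 0) (.part 1 (.chk false 0) (.split 0 (.part 8353663 (.chk false 0) (.split 0 (.chk false 0) (.chk false 0))) (.part 6457990 (.chk false 0) (.split 1 (.chk false 0) (.split 0 (.part 12287 (.chk false 0) (.split 1 (.chk false 0) (.split 0 (.chk false 0) (.chk false 0)))) (.part 8047 (.chk false 0) (.split 1 (.chk false 0) (.split 0 (.chk false 0) (.part 6 (.chk false 0) (.split 1 (.chk false 0) (.split 0 (.chk false 0) (.chk false 0)))))))))))))))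
    (by decide +kernel)

theorem p0_2_2 : Ok par f2 ((Box3.unit.l 0).l 0) (selB 0 (selB 0 C0 62241527356295341990303409839606730804546631480899444891470073837067149553332138276737) 822752278650068517275418329436576972054610277731562909398335487) :=
  Ok.run hw hf2 ⟨393,25,25,1,10⟩ 59
    (.part 8489271293 (.chk false 0) (.split 1 (.chk false 0) (.split 0 (.chk false 0) (.part 6 (.chk false 0) (.split 1 (.chk false 0) (.chk false 0))))))
    (by decide +kernel)

theorem p0_2_3 : Ok par f2 (Box3.unit.l 0) (selB 1 (selB 0 C0 62241527356295341990303409839606730804546631480899444891470073837067149553332138276737) 822752278650068517275418329436576972054610277731562909398335487) :=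
  Ok.run hw hf2 ⟨275,25,25,1,10⟩ 59
    (.chk false 0)
    (by decide +kernel)

theorem p0_2_4 : Ok par f2 (((((Box3.unit.r 0).r 1).l 0).r 1).l 0) (selB 0 (selB 0 (selB 0 (selB 0 (selB 0 C0 62241527356295341990303409839606730804546631480899444891470073837067149553332138276737) 416200190189441784329849418646363122890073662286759930173095927) 9356518939079759386611954385255530564) 2091269130480685716079820508879583843516477) 2596148429267413814265248164611072) :=
  Ok.run hw hf2 ⟨482,25,25,1,10⟩ 59
    (.part 20765378292638427093103266685011061 (.chk false 0) (.split 1 (.chk false 0) (.part 218103808 (.chk false 0) (.split 0 (.part 33554430 (.chk false 0) (.split 0 (.chk false 0) (.chk false 0))) (.part 27254619 (.chk false 0) (.split 1 (.chk false 0) (.part 4 (.chk false 0) (.split 0 (.chk false 0) (.chk false 0)))))))))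
    (by decide +kernel)

theorem p0_2_5 : Ok par f2 (((((Box3.unit.r 0).r 1).l 0).r 1).r 0) (selB 0 (selB 0 (selB 0 (selB 0 (selB 0 C0 62241527356295341990303409839606730804546631480899444891470073837067149553332138276737) 416200190189441784329849418646363122890073662286759930173095927) 9356518939079759386611954385255530564) 2091269130480685716079820508879583843516477) 2596148429267413814265248164611072) :=
  Ok.run hw hf2 ⟨535,25,25,1,10⟩ 59
    (.part 20769186805407997878082875509963706 (.chk false 0) (.split 1 (.chk false 0) (.part 33554432 (.chk false 0) (.split 0 (.part 66841627 (.chk false 0) (.split 1 (.chk false 0) (.part 1 (.chk false 0) (.split 0 (.chk false 0) (.part 63 (.chk false 0) (.split 1 (.chk false 0) (.split 0 (.chk false 0) (.chk false 0)))))))) (.chk false 0)))))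
    (by decide +kernel)

theorem p0_2_6 : Ok par f2 ((((Box3.unit.r 0).r 1).l 0).r 1) (selB 1 (selB 0 (selB 0 (selB 0 (selB 0 C0 62241527356295341990303409839606730804546631480899444891470073837067149553332138276737) 416200190189441784329849418646363122890073662286759930173095927) 9356518939079759386611954385255530564) 2091269130480685716079820508879583843516477) 2596148429267413814265248164611072) :=
  Ok.run hw hf2 ⟨360,25,25,1,10⟩ 59
    (.chk false 0)
    (by decide +kernel)

theorem p0_2_7 : Ok par f2 ((((Box3.unit.r 0).r 1).l 0).l 1) (selB 0 (selB 0 (selB 0 (selB 0 C0 62241527356295341990303409839606730804546631480899444891470073837067149553332138276737) 416200190189441784329849418646363122890073662286759930173095927) 9356518939079759386611954385255530564) 2091269130480685716079820508879583843516477) :=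
  Ok.run hw hf2 ⟨348,25,25,1,10⟩ 59
    (.chk false 0)
    (by decide +kernel)

theorem p0_2_8 : Ok par f2 (((Box3.unit.r 0).r 1).l 0) (selB 1 (selB 0 (selB 0 (selB 0 C0 62241527356295341990303409839606730804546631480899444891470073837067149553332138276737) 416200190189441784329849418646363122890073662286759930173095927) 9356518939079759386611954385255530564) 2091269130480685716079820508879583843516477) :=
  Ok.run hw hf2 ⟨330,25,25,1,10⟩ 59
    (.chk false 0)
    (by decide +kernel)

theorem p0_2_9 : Ok par f2 (((Box3.unit.r 0).r 1).r 0) (selB 0 (selB 0 (selB 0 C0 62241527356295341990303409839606730804546631480899444891470073837067149553332138276737) 416200190189441784329849418646363122890073662286759930173095927) 9356518939079759386611954385255530564) :=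
  Ok.run hw hf2 ⟨342,25,25,1,10⟩ 59
    (.chk false 0)
    (by decide +kernel)

theorem p0_2_10 : Ok par f2 ((Box3.unit.r 0).r 1) (selB 1 (selB 0 (selB 0 C0 62241527356295341990303409839606730804546631480899444891470073837067149553332138276737) 416200190189441784329849418646363122890073662286759930173095927) 9356518939079759386611954385255530564) :=
  Ok.run hw hf2 ⟨313,25,25,1,10⟩ 59
    (.chk false 0)
    (by decide +kernel)

theorem p0_2_11 : Ok par f2 ((Box3.unit.r 0).l 1) (selB 0 (selB 0 C0 62241527356295341990303409839606730804546631480899444891470073837067149553332138276737) 416200190189441784329849418646363122890073662286759930173095927) :=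
  Ok.run hw hf2 ⟨358,25,25,1,10⟩ 59
    (.part 11417981537608072092526191860599234946928738167 (.chk false 0) (.split 0 (.part 23 (.chk false 0) (.split 0 (.chk false 0) (.chk false 0))) (.chk false 0)))
    (by decide +kernel)

theorem p0_2_12 : Ok par f2 (Box3.unit.r 0) (selB 1 (selB 0 C0 62241527356295341990303409839606730804546631480899444891470073837067149553332138276737) 416200190189441784329849418646363122890073662286759930173095927) :=
  Ok.run hw hf2 ⟨275,25,25,1,10⟩ 59
    (.chk false 0)
    (by decide +kernel)

theorem p0_2_13 : Ok par f2 Box3.unit (selB 1 C0 62241527356295341990303409839606730804546631480899444891470073837067149553332138276737) :=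
  Ok.run hw hf2 ⟨237,25,25,1,10⟩ 59
    (.chk false 0)
    (by decide +kernel)

theorem p0_3_0 : Ok par f3 (Box3.unit.l 0) (selB 1 (selB 0 C0 31828687128373671670147404754316723504043375149737387180058210438277309159921469997710863) 31) :=
  Ok.run hw hf3 ⟨275,25,25,1,10⟩ 59
    (.chk false 0)
    (by decide +kernel)

theorem p0_3_1 : Ok par f3 (Box3.unit.l 0) (selB 0 (selB 0 C0 31828687128373671670147404754316723504043375149737387180058210438277309159921469997710863) 31) :=
  Ok.run hw hf3 ⟨483,25,25,1,10⟩ 59
    (.split 0 (.part 6656 (.chk false 0) (.split 1 (.split 0 (.part 1535 (.chk false 0) (.split 1 (.chk false 0) (.split 0 (.chk false 0) (.chk false 0)))) (.part 1555 (.chk false 0) (.split 0 (.part 34 (.chk false 0) (.split 1 (.chk false 0) (.part 8 (.chk false 0) (.split 0 (.part 6 (.chk false 0) (.split 1 (.split 0 (.chk false 0) (.chk false 0)) (.chk false 0))) (.chk false 0))))) (.chk false 0)))) (.part 1533 (.chk false 0) (.split 0 (.chk false 0) (.chk false 0))))) (.part 13823 (.chk false 0) (.split 1 (.split 1 (.split 0 (.chk false 0) (.chk false 0)) (.chk false 0)) (.chk false 0))))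
    (by decide +kernel)

theorem p0_3_2 : Ok par f3 (Box3.unit.r 0) (selB 0 C0 31828687128373671670147404754316723504043375149737387180058210438277309159921469997710863) :=
  Ok.run hw hf3 ⟨275,25,25,1,10⟩ 59
    (.chk false 0)
    (by decide +kernel)

theorem p0_3_3 : Ok par f3 Box3.unit (selB 1 C0 31828687128373671670147404754316723504043375149737387180058210438277309159921469997710863) :=
  Ok.run hw hf3 ⟨237,25,25,1,10⟩ 59
    (.chk false 0)
    (by decide +kernel)

theorem p0_4_0 : Ok par f4 (Box3.unit.l 1) (selB 0 C0 31828687130226345097917503934729382935072584027620014704790918736304394876101512523747199) :=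
  Ok.run hw hf4 ⟨425,25,25,1,10⟩ 59
    (.part 25153000 (.chk false 0) (.split 0 (.part 115 (.chk false 0) (.split 0 (.part 1 (.chk false 0) (.split 1 (.split 1 (.split 0 (.chk false 0) (.chk false 0)) (.chk false 0)) (.chk false 0))) (.chk false 0))) (.part 188 (.chk false 0) (.split 1 (.part 2 (.chk false 0) (.split 0 (.chk false 0) (.part 2 (.chk false 0) (.split 1 (.split 1 (.chk false 0) (.chk false 0)) (.chk false 0))))) (.chk false 0)))))
    (by decide +kernel)

theorem p0_4_1 : Ok par f4 (Box3.unit.r 1) (selB 0 C0 31828687130226345097917503934729382935072584027620014704790918736304394876101512523747199) :=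
  Ok.run hw hf4 ⟨440,25,25,1,10⟩ 59
    (.part 12615259 (.chk false 0) (.split 0 (.part 4059 (.chk false 0) (.split 1 (.part 1 (.chk false 0) (.split 0 (.chk false 0) (.chk false 0))) (.part 2 (.chk false 0) (.split 1 (.chk false 0) (.split 0 (.chk false 0) (.chk false 0)))))) (.part 2307 (.chk false 0) (.split 1 (.part 207 (.chk false 0) (.split 0 (.chk false 0) (.part 2 (.chk false 0) (.split 1 (.chk false 0) (.split 0 (.chk false 0) (.split 1 (.chk false 0) (.chk false 0))))))) (.part 95 (.chk false 0) (.split 1 (.part 2 (.chk false 0) (.split 0 (.chk false 0) (.chk false 0))) (.part 1 (.chk false 0) (.split 0 (.chk false 0) (.split 1 (.chk false 0) (.chk false 0))))))))))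
    (by decide +kernel)

theorem p0_4_2 : Ok par f4 Box3.unit (selB 1 C0 31828687130226345097917503934729382935072584027620014704790918736304394876101512523747199) :=
  Ok.run hw hf4 ⟨238,25,25,1,10⟩ 59
    (.chk false 0)
    (by decide +kernel)

theorem p0_5_0 : Ok par f5 Box3.unit C0 :=
  Ok.run hw hf5 ⟨371,25,25,1,10⟩ 59
    (.part 31828687130226345097944253256813196652055774979011803279966959798395895518657445287688831 (.chk false 0) (.split 1 (.chk false 0) (.split 0 (.part 31 (.chk false 0) (.split 1 (.chk false 0) (.split 0 (.chk false 0) (.chk false 0)))) (.chk false 0))))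
    (by decide +kernel)

theorem p0_6_0 : Ok par f6 ((((((Box3.unit.r 1).r 0).l 1).r 0).r 1).l 0) (selB 0 (selB 0 (selB 0 (selB 0 (selB 0 (selB 0 C0 30591387118365216337879828186901276773884549237184478293083817549306425937638678527) 10984976009256437181728876132737207153748174663276712840316) 2854495385910380260535915391237919019882250251) 730775210105514797268911310714221895755140955637) 283137365786637) 498965939209) :=
  Ok.run hw hf6 ⟨506,25,25,1,10⟩ 59
    (.part 34725791 (.chk false 0) (.split 1 (.part 495 (.chk false 0) (.split 0 (.part 3 (.chk false 0) (.split 1 (.chk false 0) (.chk false 0))) (.chk false 0))) (.part 1915 (.chk false 0) (.split 0 (.part 1 (.chk false 0) (.split 1 (.split 0 (.chk false 0) (.chk false 0)) (.chk false 0))) (.part 2 (.chk false 0) (.split 1 (.chk false 0) (.chk false 0)))))))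
    (by decide +kernel)

theorem p0_6_1 : Ok par f6 ((((((Box3.unit.r 1).r 0).l 1).r 0).r 1).r 0) (selB 0 (selB 0 (selB 0 (selB 0 (selB 0 (selB 0 C0 30591387118365216337879828186901276773884549237184478293083817549306425937638678527) 10984976009256437181728876132737207153748174663276712840316) 2854495385910380260535915391237919019882250251) 730775210105514797268911310714221895755140955637) 283137365786637) 498965939209) :=
  Ok.run hw hf6 ⟨559,25,25,1,10⟩ 59
    (.part 133308776 (.chk false 0) (.split 1 (.part 12911 (.chk false 0) (.split 0 (.chk false 0) (.split 1 (.part 15 (.chk false 0) (.split 1 (.chk false 0) (.split 0 (.chk false 0) (.split 1 (.chk false 0) (.chk false 0))))) (.part 29 (.chk false 0) (.split 0 (.chk false 0) (.split 1 (.chk false 0) (.chk false 0))))))) (.part 16342 (.chk false 0) (.split 0 (.chk false 0) (.part 6 (.chk false 0) (.split 1 (.chk false 0) (.chk false 0)))))))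
    (by decide +kernel)

theorem p0_6_2 : Ok par f6 (((((Box3.unit.r 1).r 0).l 1).r 0).r 1) (selB 1 (selB 0 (selB 0 (selB 0 (selB 0 (selB 0 C0 30591387118365216337879828186901276773884549237184478293083817549306425937638678527) 10984976009256437181728876132737207153748174663276712840316) 2854495385910380260535915391237919019882250251) 730775210105514797268911310714221895755140955637) 283137365786637) 498965939209) :=
  Ok.run hw hf6 ⟨388,25,25,1,10⟩ 59
    (.chk false 0)
    (by decide +kernel)

theorem p0_6_3 : Ok par f6 (((((Box3.unit.r 1).r 0).l 1).r 0).l 1) (selB 0 (selB 0 (selB 0 (selB 0 (selB 0 C0 30591387118365216337879828186901276773884549237184478293083817549306425937638678527) 10984976009256437181728876132737207153748174663276712840316) 2854495385910380260535915391237919019882250251) 730775210105514797268911310714221895755140955637) 283137365786637) :=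
  Ok.run hw hf6 ⟨484,25,25,1,10⟩ 59
    (.part 1099436130303 (.chk false 0) (.split 0 (.chk false 0) (.split 1 (.chk false 0) (.part 2 (.chk false 0) (.split 1 (.chk false 0) (.split 0 (.chk false 0) (.chk false 0)))))))
    (by decide +kernel)

theorem p0_6_4 : Ok par f6 ((((Box3.unit.r 1).r 0).l 1).r 0) (selB 1 (selB 0 (selB 0 (selB 0 (selB 0 C0 30591387118365216337879828186901276773884549237184478293083817549306425937638678527) 10984976009256437181728876132737207153748174663276712840316) 2854495385910380260535915391237919019882250251) 730775210105514797268911310714221895755140955637) 283137365786637) :=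
  Ok.run hw hf6 ⟨361,25,25,1,10⟩ 59
    (.chk false 0)
    (by decide +kernel)


end Crest.Agent.R163.S0
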