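import Crest.Agent.R163.Q3.D.S0.S1
import Crest.Agent.R163.Q3.D.S0.H

set_option autoImplicit false
set_option maxRecDepth 100000
set_option linter.all false
set_option Elab.async false

namespace Crest.Agent.R163.S0

theorem p1_0_0 : Ok par f0 Box3.unit (selB 1 C1 252471070482577719563843857640355267725048324779584550986172120032962765273438697291775) :=
  Ok.run hw hf0 ⟨237,25,25,1,10⟩ 59
    (.chk false 0)
    (by decide +kernel)

theorem p1_0_1 : Ok par f0 Box3.unit (selB 0 C1 252471070482577719563843857640355267725048324779584550986172120032962765273438697291775) :=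
  Ok.run hw hf0 ⟨444,25,25,1,10⟩ 59
    (.split 0 (.part 2147483582 (.chk false 0) (.split 0 (.chk false 0) (.part 3 (.chk false 0) (.split 1 (.chk false 0) (.split 0 (.chk false 0) (.part 2 (.chk false 0) (.split 1 (.chk false 0) (.split 0 (.chk false 0) (.chk false 0))))))))) (.part 7497382655 (.chk false 0) (.split 1 (.chk false 0) (.split 0 (.part 255 (.chk false 0) (.split 1 (.chk false 0) (.split 0 (.chk false 0) (.chk false 0)))) (.part 283 (.chk false 0) (.split 1 (.chk false 0) (.split 0 (.part 1 (.chk false 0) (.split 1 (.chk false 0) (.split 0 (.chk false 0) (.chk false 0)))) (.chk false 0))))))))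
    (by decide +kernel)

theorem p1_1_0 : Ok par f1 Box3.unit C1 :=
  Ok.run hw hf1 ⟨342,25,25,1,10⟩ 59
    (.part 497323236409786642155382248146820840100456150797347716141755627474326347991077634441215 (.chk false 0) (.split 0 (.chk false 0) (.part 43 (.chk false 0) (.split 0 (.chk false 0) (.part 2 (.chk false 0) (.split 1 (.chk false 0) (.chk false 0)))))))
    (by decide +kernel)

theorem p1_2_0 : Ok par f2 (Box3.unit.l 0) (selB 0 C1 497323236409786641750146949437157946656895874027266839379018179738155226728863530861247) :=
  Ok.run hw hf2 ⟨413,25,25,1,10⟩ 59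
    (.part 566317593596428117262291734488204495601615 (.chk false 0) (.split 0 (.part 4835703278177041722114047 (.chk false 0) (.split 1 (.chk false 0) (.chk false 0))) (.part 4835408121405398673465363 (.chk false 0) (.split 1 (.chk false 0) (.part 507938 (.chk false 0) (.split 0 (.part 7167 (.chk false 0) (.split 1 (.chk false 0) (.split 0 (.chk false 0) (.chk false 0)))) (.chk false 0)))))))
    (by decide +kernel)

theorem p1_2_1 : Ok par f2 (Box3.unit.r 0) (selB 0 C1 497323236409786641750146949437157946656895874027266839379018179738155226728863530861247) :=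
  Ok.run hw hf2 ⟨387,25,25,1,10⟩ 59
    (.part 1427247692705959881058271802331495499414258687 (.chk false 0) (.split 1 (.part 33554335 (.chk false 0) (.split 0 (.split 0 (.chk false 0) (.chk false 0)) (.chk false 0))) (.part 28745824 (.chk false 0) (.split 0 (.part 30732 (.chk false 0) (.split 1 (.chk false 0) (.split 0 (.chk false 0) (.chk false 0)))) (.chk false 0)))))
    (by decide +kernel)

theorem p1_2_2 : Ok par f2 Box3.unit (selB 1 C1 497323236409786641750146949437157946656895874027266839379018179738155226728863530861247) :=
  Ok.run hw hf2 ⟨237,25,25,1,10⟩ 59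
    (.chk false 0)
    (by decide +kernel)

theorem p1_3_0 : Ok par f3 Box3.unit (selB 1 C1 497078842615648042423100178213015892427966596669270521039060997735255395484221906616319) :=
  Ok.run hw hf3 ⟨237,25,25,1,10⟩ 59
    (.chk false 0)
    (by decide +kernel)

theorem p1_3_1 : Ok par f3 Box3.unit (selB 0 C1 497078842615648042423100178213015892427966596669270521039060997735255395484221906616319) :=
  Ok.run hw hf3 ⟨407,25,25,1,10⟩ 59
    (.split 1 (.part 480 (.chk false 0) (.split 0 (.chk false 0) (.part 6 (.chk false 0) (.split 1 (.part 6 (.chk false 0) (.split 1 (.split 0 (.chk false 0) (.chk false 0)) (.chk false 0))) (.part 5 (.chk false 0) (.split 0 (.chk false 0) (.split 1 (.chk false 0) (.split 0 (.chk false 0) (.chk false 0))))))))) (.part 467 (.chk false 0) (.split 0 (.chk false 0) (.part 3 (.chk false 0) (.split 1 (.chk false 0) (.chk false 0))))))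
    (by decide +kernel)

theorem p1_4_0 : Ok par f4 (((Box3.unit.r 1).l 1).l 0) (selB 0 (selB 0 (selB 0 C1 248661618375514866655880163599568658180900570698202400864559245196361640763391316245887) 123091615551488) 52915070822236) :=
  Ok.run hw hf4 ⟨448,25,25,1,10⟩ 59
    (.part 104382 (.chk false 0) (.split 1 (.part 125 (.chk false 0) (.split 0 (.split 0 (.split 1 (.chk false 0) (.chk false 0)) (.chk false 0)) (.chk false 0))) (.part 42 (.chk false 0) (.split 0 (.chk false 0) (.part 6 (.chk false 0) (.split 0 (.chk false 0) (.split 1 (.chk false 0) (.part 2 (.chk false 0) (.split 0 (.chk false 0) (.chk false 0))))))))))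
    (by decide +kernel)

theorem p1_4_1 : Ok par f4 (((Box3.unit.r 1).l 1).r 0) (selB 0 (selB 0 (selB 0 C1 248661618375514866655880163599568658180900570698202400864559245196361640763391316245887) 123091615551488) 52915070822236) :=
  Ok.run hw hf4 ⟨453,25,25,1,10⟩ 59
    (.part 28799 (.chk false 0) (.split 1 (.chk false 0) (.part 63 (.chk false 0) (.split 1 (.part 1 (.chk false 0) (.split 0 (.part 1 (.chk false 0) (.split 1 (.chk false 0) (.chk false 0))) (.chk false 0))) (.part 1 (.chk false 0) (.split 0 (.split 1 (.part 1 (.chk false 0) (.split 0 (.chk false 0) (.chk false 0))) (.chk false 0)) (.chk false 0)))))))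
    (by decide +kernel)

theorem p1_4_2 : Ok par f4 ((Box3.unit.r 1).l 1) (selB 1 (selB 0 (selB 0 C1 248661618375514866655880163599568658180900570698202400864559245196361640763391316245887) 123091615551488) 52915070822236) :=
  Ok.run hw hf4 ⟨294,25,25,1,10⟩ 59
    (.chk false 0)
    (by decide +kernel)

theorem p1_4_3 : Ok par f4 ((((Box3.unit.r 1).r 1).l 0).l 1) (selB 0 (selB 0 (selB 0 (selB 0 C1 248661618375514866655880163599568658180900570698202400864559245196361640763391316245887) 123091615551488) 12437420245056) 1433664510) :=
  Ok.run hw hf4 ⟨488,25,25,1,10⟩ 59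
    (.part 572 (.chk false 0) (.split 0 (.part 27 (.chk false 0) (.split 0 (.split 1 (.chk false 0) (.chk false 0)) (.split 1 (.split 0 (.split 1 (.chk false 0) (.chk false 0)) (.chk false 0)) (.chk false 0)))) (.part 14 (.chk false 0) (.split 0 (.chk false 0) (.split 1 (.part 2 (.chk false 0) (.split 0 (.chk false 0) (.chk false 0))) (.chk false 0))))))
    (by decide +kernel)

theorem p1_4_4 : Ok par f4 ((((Box3.unit.r 1).r 1).l 0).r 1) (selB 0 (selB 0 (selB 0 (selB 0 C1 248661618375514866655880163599568658180900570698202400864559245196361640763391316245887) 123091615551488) 12437420245056) 1433664510) :=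
  Ok.run hw hf4 ⟨503,25,25,1,10⟩ 59
    (.part 449 (.chk false 0) (.split 0 (.part 31 (.chk false 0) (.split 1 (.chk false 0) (.chk false 0))) (.part 9 (.chk false 0) (.split 1 (.part 3 (.chk false 0) (.split 0 (.part 1 (.chk false 0) (.split 1 (.chk false 0) (.chk false 0))) (.part 2 (.chk false 0) (.split 1 (.chk false 0) (.split 0 (.chk false 0) (.split 1 (.chk false 0) (.chk false 0))))))) (.part 9 (.chk false 0) (.split 0 (.chk false 0) (.part 2 (.chk false 0) (.split 1 (.split 0 (.chk false 0) (.split 1 (.chk false 0) (.chk false 0))) (.chk false 0)))))))))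
    (by decide +kernel)

theorem p1_4_5 : Ok par f4 (((Box3.unit.r 1).r 1).l 0) (selB 1 (selB 0 (selB 0 (selB 0 C1 248661618375514866655880163599568658180900570698202400864559245196361640763391316245887) 123091615551488) 12437420245056) 1433664510) :=
  Ok.run hw hf4 ⟨343,25,25,1,10⟩ 59
    (.chk false 0)
    (by decide +kernel)

theorem p1_4_6 : Ok par f4 (((Box3.unit.r 1).r 1).r 0) (selB 0 (selB 0 (selB 0 C1 248661618375514866655880163599568658180900570698202400864559245196361640763391316245887) 123091615551488) 12437420245056) :=
  Ok.run hw hf4 ⟨457,25,25,1,10⟩ 59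
    (.part 6118464639 (.chk false 0) (.split 1 (.part 12287 (.chk false 0) (.split 1 (.chk false 0) (.chk false 0))) (.part 13415 (.chk false 0) (.split 1 (.chk false 0) (.part 52 (.chk false 0) (.split 0 (.part 3 (.chk false 0) (.split 0 (.split 1 (.chk false 0) (.chk false 0)) (.chk false 0))) (.chk false 0)))))))
    (by decide +kernel)

theorem p1_4_7 : Ok par f4 ((Box3.unit.r 1).r 1) (selB 1 (selB 0 (selB 0 C1 248661618375514866655880163599568658180900570698202400864559245196361640763391316245887) 123091615551488) 12437420245056) :=
  Ok.run hw hf4 ⟨305,25,25,1,10⟩ 59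
    (.chk false 0)
    (by decide +kernel)

theorem p1_4_8 : Ok par f4 (Box3.unit.r 1) (selB 1 (selB 0 C1 248661618375514866655880163599568658180900570698202400864559245196361640763391316245887) 123091615551488) :=
  Ok.run hw hf4 ⟨276,25,25,1,10⟩ 59
    (.chk false 0)
    (by decide +kernel)

theorem p1_4_9 : Ok par f4 (Box3.unit.l 1) (selB 0 C1 248661618375514866655880163599568658180900570698202400864559245196361640763391316245887) :=
  Ok.run hw hf4 ⟨449,25,25,1,10⟩ 59
    (.part 4611580598454845407 (.chk false 0) (.split 1 (.part 4065 (.chk false 0) (.split 1 (.part 14 (.chk false 0) (.split 1 (.split 0 (.chk false 0) (.split 1 (.split 0 (.chk false 0) (.chk false 0)) (.chk false 0))) (.chk false 0))) (.chk false 0))) (.part 126 (.chk false 0) (.split 0 (.part 23 (.chk false 0) (.split 1 (.chk false 0) (.chk false 0))) (.part 49 (.chk false 0) (.split 1 (.part 6 (.chk false 0) (.split 1 (.split 0 (.chk false 0) (.split 1 (.chk false 0) (.chk false 0))) (.chk false 0))) (.chk false 0)))))))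
    (by decide +kernel)

theorem p1_4_10 : Ok par f4 Box3.unit (selB 1 C1 248661618375514866655880163599568658180900570698202400864559245196361640763391316245887) :=
  Ok.run hw hf4 ⟨238,25,25,1,10⟩ 59
    (.chk false 0)
    (by decide +kernel)

theorem p1_5_0 : Ok par f5 Box3.unit C1 :=
  Ok.run hw hf5 ⟨371,25,25,1,10⟩ 59
    (.part 248663615138865316801056824823590504128730096706634962889499879613105708140678548029439 (.chk false 0) (.split 1 (.chk false 0) (.part 4194304 (.chk false 0) (.split 0 (.part 536870207 (.chk false 0) (.split 1 (.chk false 0) (.split 0 (.chk false 0) (.chk false 0)))) (.part 267378655 (.chk false 0) (.split 1 (.chk false 0) (.split 0 (.chk false 0) (.chk false 0))))))))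
    (by decide +kernel)

theorem p1_6_0 : Ok par f6 (((Box3.unit.l 1).l 0).l 1) (selB 0 (selB 0 (selB 0 C1 497323236409674239885546777402710445196725004191017466795103476878246232920758671544238) 170224260250443677061052322249324880007) 273445829250414810589774951405718644275019775) :=
  Ok.run hw hf6 ⟨479,25,25,1,10⟩ 59
    (.part 2001366645996159 (.chk false 0) (.split 0 (.chk false 0) (.part 37 (.chk false 0) (.split 1 (.part 9215 (.chk false 0) (.split 0 (.chk false 0) (.part 11 (.chk false 0) (.split 1 (.chk false 0) (.chk false 0))))) (.part 7311 (.chk false 0) (.split 0 (.chk false 0) (.part 65 (.chk false 0) (.split 1 (.part 11 (.chk false 0) (.split 0 (.part 1 (.chk false 0) (.split 1 (.chk false 0) (.chk false 0))) (.chk false 0))) (.chk false 0)))))))))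
    (by decide +kernel)


end Crest.Agent.R163.S0
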