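import Crest.Agent.R163.Q3.D.S0.S1
import Crest.Agent.R163.Q3.D.S0.H

set_option autoImplicit false
set_option maxRecDepth 100000
set_option linter.all false
set_option Elab.async false

namespace Crest.Agent.R163.S0

theorem p1_6_1 : Ok par f6 (((Box3.unit.l 1).l 0).r 1) (selB 0 (selB 0 (selB 0 C1 497323236409674239885546777402710445196725004191017466795103476878246232920758671544238) 170224260250443677061052322249324880007) 273445829250414810589774951405718644275019775) :=
  Ok.run hw hf6 ⟨494,25,25,1,10⟩ 59
    (.part 72056997015460824 (.chk false 0) (.split 0 (.chk false 0) (.part 196625 (.chk false 0) (.split 1 (.part 5103 (.chk false 0) (.split 0 (.chk false 0) (.part 8 (.chk false 0) (.split 1 (.part 1 (.chk false 0) (.split 0 (.chk false 0) (.part 1 (.chk false 0) (.split 1 (.split 0 (.chk false 0) (.chk false 0)) (.split 0 (.chk false 0) (.chk false 0)))))) (.chk false 0))))) (.chk false 0)))))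
    (by decide +kernel)

theorem p1_6_2 : Ok par f6 ((Box3.unit.l 1).l 0) (selB 1 (selB 0 (selB 0 C1 497323236409674239885546777402710445196725004191017466795103476878246232920758671544238) 170224260250443677061052322249324880007) 273445829250414810589774951405718644275019775) :=
  Ok.run hw hf6 ⟨314,25,25,1,10⟩ 59
    (.chk false 0)
    (by decide +kernel)

theorem p1_6_3 : Ok par f6 (((Box3.unit.l 1).r 0).l 1) (selB 1 (selB 0 (selB 0 (selB 0 C1 497323236409674239885546777402710445196725004191017466795103476878246232920758671544238) 170224260250443677061052322249324880007) 11412667836427079218762742232213325067993254014) 1351929028485187867220738179071) :=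
  Ok.run hw hf6 ⟨343,25,25,1,10⟩ 59
    (.chk false 0)
    (by decide +kernel)

theorem p1_6_4 : Ok par f6 (((Box3.unit.l 1).r 0).l 1) (selB 0 (selB 0 (selB 0 (selB 0 C1 497323236409674239885546777402710445196725004191017466795103476878246232920758671544238) 170224260250443677061052322249324880007) 11412667836427079218762742232213325067993254014) 1351929028485187867220738179071) :=
  Ok.run hw hf6 ⟨482,25,25,1,10⟩ 59
    (.split 0 (.part 140843 (.chk false 0) (.split 1 (.part 457471 (.chk false 0) (.split 0 (.part 1 (.chk false 0) (.split 1 (.chk false 0) (.chk false 0))) (.chk false 0))) (.part 519937 (.chk false 0) (.split 0 (.part 12 (.chk false 0) (.split 1 (.part 47 (.chk false 0) (.split 0 (.chk false 0) (.split 1 (.chk false 0) (.chk false 0)))) (.chk false 0))) (.part 191 (.chk false 0) (.split 1 (.split 0 (.split 1 (.chk false 0) (.chk false 0)) (.chk false 0)) (.chk false 0))))))) (.part 134184446 (.chk false 0) (.split 1 (.chk false 0) (.part 6 (.chk false 0) (.split 1 (.chk false 0) (.chk false 0))))))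
    (by decide +kernel)

theorem p1_6_5 : Ok par f6 (((((Box3.unit.l 1).r 0).r 1).l 0).r 1) (selB 1 (selB 0 (selB 0 (selB 0 (selB 0 (selB 0 C1 497323236409674239885546777402710445196725004191017466795103476878246232920758671544238) 170224260250443677061052322249324880007) 11412667836427079218762742232213325067993254014) 2535276651247409905968598749760) 783645026876965375) 2198364684416) :=
  Ok.run hw hf6 ⟨370,25,25,1,10⟩ 59
    (.chk false 0)
    (by decide +kernel)

theorem p1_6_6 : Ok par f6 (((((Box3.unit.l 1).r 0).r 1).l 0).r 1) (selB 0 (selB 0 (selB 0 (selB 0 (selB 0 (selB 0 C1 497323236409674239885546777402710445196725004191017466795103476878246232920758671544238) 170224260250443677061052322249324880007) 11412667836427079218762742232213325067993254014) 2535276651247409905968598749760) 783645026876965375) 2198364684416) :=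
  Ok.run hw hf6 ⟨539,25,25,1,10⟩ 59
    (.split 0 (.part 590847 (.chk false 0) (.split 1 (.part 7 (.chk false 0) (.split 0 (.chk false 0) (.part 27 (.chk false 0) (.split 1 (.split 0 (.split 1 (.split 0 (.chk false 0) (.chk false 0)) (.split 0 (.chk false 0) (.chk false 0))) (.chk false 0)) (.chk false 0))))) (.part 228 (.chk false 0) (.split 0 (.chk false 0) (.part 13 (.chk false 0) (.split 1 (.chk false 0) (.split 0 (.split 1 (.chk false 0) (.split 0 (.chk false 0) (.chk false 0))) (.chk false 0)))))))) (.part 1047929 (.chk false 0) (.split 1 (.part 3 (.chk false 0) (.split 0 (.chk false 0) (.chk false 0))) (.chk false 0))))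
    (by decide +kernel)

theorem p1_6_7 : Ok par f6 (((((Box3.unit.l 1).r 0).r 1).l 0).l 1) (selB 0 (selB 0 (selB 0 (selB 0 (selB 0 C1 497323236409674239885546777402710445196725004191017466795103476878246232920758671544238) 170224260250443677061052322249324880007) 11412667836427079218762742232213325067993254014) 2535276651247409905968598749760) 783645026876965375) :=
  Ok.run hw hf6 ⟨521,25,25,1,10⟩ 59
    (.part 142877785599 (.chk false 0) (.split 0 (.part 10735 (.chk false 0) (.split 1 (.part 223 (.chk false 0) (.split 0 (.chk false 0) (.chk false 0))) (.part 229 (.chk false 0) (.split 0 (.part 5 (.chk false 0) (.split 1 (.split 0 (.chk false 0) (.chk false 0)) (.chk false 0))) (.chk false 0))))) (.part 261869 (.chk false 0) (.split 1 (.chk false 0) (.part 5 (.chk false 0) (.split 0 (.split 1 (.split 0 (.split 1 (.chk false 0) (.chk false 0)) (.chk false 0)) (.chk false 0)) (.chk false 0)))))))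
    (by decide +kernel)

theorem p1_6_8 : Ok par f6 ((((Box3.unit.l 1).r 0).r 1).l 0) (selB 1 (selB 0 (selB 0 (selB 0 (selB 0 C1 497323236409674239885546777402710445196725004191017466795103476878246232920758671544238) 170224260250443677061052322249324880007) 11412667836427079218762742232213325067993254014) 2535276651247409905968598749760) 783645026876965375) :=
  Ok.run hw hf6 ⟨349,25,25,1,10⟩ 59
    (.chk false 0)
    (by decide +kernel)

theorem p1_6_9 : Ok par f6 ((((Box3.unit.l 1).r 0).r 1).r 0) (selB 0 (selB 0 (selB 0 (selB 0 C1 497323236409674239885546777402710445196725004191017466795103476878246232920758671544238) 170224260250443677061052322249324880007) 11412667836427079218762742232213325067993254014) 2535276651247409905968598749760) :=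
  Ok.run hw hf6 ⟨430,25,25,1,10⟩ 59
    (.part 1152921504068402725 (.chk false 0) (.split 1 (.chk false 0) (.part 505 (.chk false 0) (.split 1 (.chk false 0) (.split 0 (.chk false 0) (.chk false 0))))))
    (by decide +kernel)

theorem p1_6_10 : Ok par f6 (((Box3.unit.l 1).r 0).r 1) (selB 1 (selB 0 (selB 0 (selB 0 C1 497323236409674239885546777402710445196725004191017466795103476878246232920758671544238) 170224260250443677061052322249324880007) 11412667836427079218762742232213325067993254014) 2535276651247409905968598749760) :=
  Ok.run hw hf6 ⟨332,25,25,1,10⟩ 59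
    (.chk false 0)
    (by decide +kernel)

theorem p1_6_11 : Ok par f6 ((Box3.unit.l 1).r 0) (selB 1 (selB 0 (selB 0 C1 497323236409674239885546777402710445196725004191017466795103476878246232920758671544238) 170224260250443677061052322249324880007) 11412667836427079218762742232213325067993254014) :=
  Ok.run hw hf6 ⟨314,25,25,1,10⟩ 59
    (.chk false 0)
    (by decide +kernel)

theorem p1_6_12 : Ok par f6 (Box3.unit.l 1) (selB 1 (selB 0 C1 497323236409674239885546777402710445196725004191017466795103476878246232920758671544238) 170224260250443677061052322249324880007) :=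
  Ok.run hw hf6 ⟨276,25,25,1,10⟩ 59
    (.chk false 0)
    (by decide +kernel)

theorem p1_6_13 : Ok par f6 (((((Box3.unit.r 1).r 0).l 1).l 0).l 1) (selB 0 (selB 0 (selB 0 (selB 0 (selB 0 C1 497323236409674239885546777402710445196725004191017466795103476878246232920758671544238) 25108406941546723011402069609481670087870889085201924753507) 618969982171615561158492225) 35186519572480) 2474308034619) :=
  Ok.run hw hf6 ⟨498,25,25,1,10⟩ 59
    (.part 136441585 (.chk false 0) (.split 0 (.part 65535 (.chk false 0) (.split 1 (.split 0 (.chk false 0) (.part 6 (.chk false 0) (.split 1 (.split 0 (.chk false 0) (.chk false 0)) (.chk false 0)))) (.chk false 0))) (.part 515606 (.chk false 0) (.split 1 (.chk false 0) (.part 52 (.chk false 0) (.split 0 (.part 3 (.chk false 0) (.split 1 (.split 0 (.chk false 0) (.chk false 0)) (.chk false 0))) (.part 14 (.chk false 0) (.split 1 (.split 0 (.chk false 0) (.chk false 0)) (.split 0 (.chk false 0) (.chk false 0))))))))))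
    (by decide +kernel)

theorem p1_6_14 : Ok par f6 (((((Box3.unit.r 1).r 0).l 1).l 0).r 1) (selB 0 (selB 0 (selB 0 (selB 0 (selB 0 C1 497323236409674239885546777402710445196725004191017466795103476878246232920758671544238) 25108406941546723011402069609481670087870889085201924753507) 618969982171615561158492225) 35186519572480) 2474308034619) :=
  Ok.run hw hf6 ⟨523,25,25,1,10⟩ 59
    (.part 8589795931 (.chk false 0) (.split 0 (.chk false 0) (.part 151 (.chk false 0) (.split 1 (.split 0 (.chk false 0) (.split 1 (.part 6 (.chk false 0) (.split 0 (.split 1 (.chk false 0) (.chk false 0)) (.chk false 0))) (.chk false 0))) (.chk false 0)))))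
    (by decide +kernel)

theorem p1_6_15 : Ok par f6 ((((Box3.unit.r 1).r 0).l 1).l 0) (selB 1 (selB 0 (selB 0 (selB 0 (selB 0 C1 497323236409674239885546777402710445196725004191017466795103476878246232920758671544238) 25108406941546723011402069609481670087870889085201924753507) 618969982171615561158492225) 35186519572480) 2474308034619) :=
  Ok.run hw hf6 ⟨349,25,25,1,10⟩ 59
    (.chk false 0)
    (by decide +kernel)

theorem p1_6_16 : Ok par f6 ((((Box3.unit.r 1).r 0).l 1).r 0) (selB 0 (selB 0 (selB 0 (selB 0 C1 497323236409674239885546777402710445196725004191017466795103476878246232920758671544238) 25108406941546723011402069609481670087870889085201924753507) 618969982171615561158492225) 35186519572480) :=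
  Ok.run hw hf6 ⟨522,25,25,1,10⟩ 59
    (.part 35184360201375 (.chk false 0) (.split 1 (.part 1167 (.chk false 0) (.split 0 (.split 1 (.part 5 (.chk false 0) (.split 0 (.part 3 (.chk false 0) (.split 1 (.chk false 0) (.split 0 (.chk false 0) (.chk false 0)))) (.part 6 (.chk false 0) (.split 1 (.split 1 (.split 0 (.chk false 0) (.chk false 0)) (.split 0 (.chk false 0) (.chk false 0))) (.chk false 0))))) (.chk false 0)) (.part 30 (.chk false 0) (.split 1 (.chk false 0) (.chk false 0))))) (.chk false 0)))
    (by decide +kernel)

theorem p1_6_17 : Ok par f6 (((Box3.unit.r 1).r 0).l 1) (selB 1 (selB 0 (selB 0 (selB 0 C1 497323236409674239885546777402710445196725004191017466795103476878246232920758671544238) 25108406941546723011402069609481670087870889085201924753507) 618969982171615561158492225) 35186519572480) :=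
  Ok.run hw hf6 ⟨332,25,25,1,10⟩ 59
    (.chk false 0)
    (by decide +kernel)

theorem p1_6_18 : Ok par f6 (((Box3.unit.r 1).r 0).r 1) (selB 0 (selB 0 (selB 0 C1 497323236409674239885546777402710445196725004191017466795103476878246232920758671544238) 25108406941546723011402069609481670087870889085201924753507) 618969982171615561158492225) :=
  Ok.run hw hf6 ⟨343,25,25,1,10⟩ 59
    (.chk false 0)
    (by decide +kernel)

theorem p1_6_19 : Ok par f6 ((Box3.unit.r 1).r 0) (selB 1 (selB 0 (selB 0 C1 497323236409674239885546777402710445196725004191017466795103476878246232920758671544238) 25108406941546723011402069609481670087870889085201924753507) 618969982171615561158492225) :=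
  Ok.run hw hf6 ⟨314,25,25,1,10⟩ 59
    (.chk false 0)
    (by decide +kernel)

theorem p1_6_20 : Ok par f6 ((Box3.unit.r 1).l 0) (selB 0 (selB 0 C1 497323236409674239885546777402710445196725004191017466795103476878246232920758671544238) 25108406941546723011402069609481670087870889085201924753507) :=
  Ok.run hw hf6 ⟨343,25,25,1,10⟩ 59
    (.part 618970019498574949373706239 (.chk false 0) (.split 0 (.chk false 0) (.chk false 0)))
    (by decide +kernel)

theorem p1_6_21 : Ok par f6 (Box3.unit.r 1) (selB 1 (selB 0 C1 497323236409674239885546777402710445196725004191017466795103476878246232920758671544238) 25108406941546723011402069609481670087870889085201924753507) :=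
  Ok.run hw hf6 ⟨276,25,25,1,10⟩ 59
    (.chk false 0)
    (by decide +kernel)

theorem p1_6_22 : Ok par f6 Box3.unit (selB 1 C1 497323236409674239885546777402710445196725004191017466795103476878246232920758671544238) :=
  Ok.run hw hf6 ⟨238,25,25,1,10⟩ 59
    (.chk false 0)
    (by decide +kernel)

theorem p1_7_0 : Ok par f7 (((Box3.unit.l 0).r 1).l 0) (selB 0 (selB 0 (selB 0 C1 497323236409786531510942101174912078730601302049042832574283195023159111150156275253311) 283485779528819032735378450875024299638114498101237) 7427671816538135840149209090) :=
  Ok.run hw hf7 ⟨451,25,25,1,10⟩ 59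
    (.part 6112324129371361869121454079 (.chk false 0) (.split 1 (.chk false 0) (.part 4 (.chk false 0) (.split 0 (.part 27 (.chk false 0) (.split 1 (.chk false 0) (.split 0 (.chk false 0) (.chk false 0)))) (.chk false 0)))))
    (by decide +kernel)

theorem p1_7_1 : Ok par f7 (((Box3.unit.l 0).r 1).r 0) (selB 0 (selB 0 (selB 0 C1 497323236409786531510942101174912078730601302049042832574283195023159111150156275253311) 283485779528819032735378450875024299638114498101237) 7427671816538135840149209090) :=
  Ok.run hw hf7 ⟨487,25,25,1,10⟩ 59
    (.part 9903520313125924888420827611 (.chk false 0) (.split 1 (.chk false 0) (.part 8192 (.chk false 0) (.split 0 (.part 704511 (.chk false 0) (.split 1 (.chk false 0) (.split 0 (.chk false 0) (.part 3 (.chk false 0) (.split 1 (.chk false 0) (.split 0 (.chk false 0) (.chk false 0))))))) (.part 1048573 (.chk false 0) (.split 1 (.chk false 0) (.split 0 (.chk false 0) (.chk false 0))))))))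
    (by decide +kernel)

theorem p1_7_2 : Ok par f7 ((Box3.unit.l 0).r 1) (selB 1 (selB 0 (selB 0 C1 497323236409786531510942101174912078730601302049042832574283195023159111150156275253311) 283485779528819032735378450875024299638114498101237) 7427671816538135840149209090) :=
  Ok.run hw hf7 ⟨314,25,25,1,10⟩ 59
    (.chk false 0)
    (by decide +kernel)

theorem p1_7_3 : Ok par f7 ((Box3.unit.l 0).l 1) (selB 0 (selB 0 C1 497323236409786531510942101174912078730601302049042832574283195023159111150156275253311) 283485779528819032735378450875024299638114498101237) :=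
  Ok.run hw hf7 ⟨343,25,25,1,10⟩ 59
    (.part 5070602400322621795628107169791 (.chk false 0) (.split 0 (.chk false 0) (.chk false 0)))
    (by decide +kernel)

theorem p1_7_4 : Ok par f7 (Box3.unit.l 0) (selB 1 (selB 0 C1 497323236409786531510942101174912078730601302049042832574283195023159111150156275253311) 283485779528819032735378450875024299638114498101237) :=
  Ok.run hw hf7 ⟨276,25,25,1,10⟩ 59
    (.chk false 0)
    (by decide +kernel)

theorem p1_7_5 : Ok par f7 (Box3.unit.r 0) (selB 0 C1 497323236409786531510942101174912078730601302049042832574283195023159111150156275253311) :=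
  Ok.run hw hf7 ⟨332,25,25,1,10⟩ 59
    (.part 374144419156711147060143317175368453031918730836725 (.chk false 0) (.split 0 (.part 32 (.chk false 0) (.split 1 (.chk false 0) (.chk false 0))) (.chk false 0)))
    (by decide +kernel)

theorem p1_7_6 : Ok par f7 Box3.unit (selB 1 C1 497323236409786531510942101174912078730601302049042832574283195023159111150156275253311) :=
  Ok.run hw hf7 ⟨238,25,25,1,10⟩ 59
    (.chk false 0)
    (by decide +kernel)


end Crest.Agent.R163.S0
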